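import Vale.Agent.P192.Thin.Defs

/-!
P192: two nested cuts of the same local type give an element of infinite order.
-/

namespace Vale.Agent.P192.Thin

variable {A G X : Type*} [Group G] [MulAction G X]

/-- Two nested cuts D' ⊆ D, far apart, and an identification of their neighbourhoods. -/
structure Pair (π : FreeGroup A →* G) (R : ℕ) (D D' : Set X) where
  /-- forward map -/
  ψ : X → X
  /-- backward map -/
  ψi : X → X
  sub : D' ⊆ D
  far : ∀ z ∈ nb π (2 * R) (bdry π D), z ∉ D'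
  near : ∀ z ∈ nb π (2 * R) (bdry π D'), z ∈ D
  maps : ∀ r ≤ 2 * R, ∀ z ∈ nb π r (bdry π D), ψ z ∈ nb π r (bdry π D')
  left : ∀ z ∈ nb π (2 * R) (bdry π D), ψi (ψ z) = z
  back : ∀ r ≤ 2 * R, ∀ z ∈ nb π r (bdry π D'), ψi z ∈ nb π r (bdry π D) ∧ ψ (ψi z) = z
  mem : ∀ z ∈ nb π (2 * R) (bdry π D), (ψ z ∈ D' ↔ z ∈ D)
  edge : ∀ z ∈ nb π (2 * R) (bdry π D), ∀ l, act π [l] z ∈ nb π (2 * R) (bdry π D) →
    ψ (act π [l] z) = act π [l] (ψ z)

variable {π : FreeGroup A →* G} {R : ℕ} {D D' : Set X}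

theorem bdry_back (P : Pair π R D D') {z : X} (hz : z ∈ bdry π D') : P.ψi z ∈ bdry π D := by
  obtain ⟨h, -⟩ := P.back 0 (Nat.zero_le _) z (subset_nb 0 _ hz)
  obtain ⟨x, hx, w, hw, e⟩ := h
  rw [List.length_eq_zero_iff.1 (Nat.le_zero.1 hw), act_nil] at e
  exact e ▸ hx

open scoped Classical in
/-- The periodic action of a letter on the block between the cuts times ℤ. -/
noncomputable def pf (P : Pair π R D D') (l : A × Bool) (q : X × ℤ) : X × ℤ :=
  if act π [l] q.1 ∈ D' then (P.ψi (act π [l] q.1), q.2 + 1)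
  else if act π [l] q.1 ∈ D then (act π [l] q.1, q.2)
  else (P.ψ (act π [l] q.1), q.2 - 1)

theorem pf_mem (P : Pair π R D D') (hR : 1 ≤ R) (l : A × Bool) {q : X × ℤ} (hq : q.1 ∈ D \ D') :
    (pf P l q).1 ∈ D \ D' := by
  unfold pf
  split_ifs with h1 h2
  · have hb : act π [l] q.1 ∈ bdry π D' := by
      refine ⟨h1, (l.1, !l.2), ?_⟩
      have e : [(l.1, !l.2)] = FreeGroup.invRev [l] := by simp [FreeGroup.invRev]
      rw [e, act_invRev]
      exact hq.2
    have hb' := bdry_back P hb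
    exact ⟨hb'.1, P.far _ (subset_nb _ _ hb')⟩
  · exact ⟨h2, h1⟩
  · have hb : q.1 ∈ bdry π D := ⟨hq.1, l, h2⟩
    have hz : act π [l] q.1 ∈ nb π (2 * R) (bdry π D) :=
      nb_mono (r := [l].length + 0) (by simp; omega) _ (act_mem_nb (subset_nb 0 _ hb) [l])
    exact ⟨P.near _ (P.maps _ le_rfl _ hz), fun h => h2 ((P.mem _ hz).1 h)⟩

open scoped Classical in
/-- The chart near the first cut. -/
noncomputable def chart (P : Pair π R D D') (i : ℤ) (z : X) : X × ℤ :=
  if z ∈ D then (z, i) else (P.ψ z, i - 1)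

theorem pf_chart (P : Pair π R D D') (i : ℤ) (l : A × Bool) {z : X}
    (hz : z ∈ nb π (2 * R) (bdry π D)) (hz' : act π [l] z ∈ nb π (2 * R) (bdry π D)) :
    pf P l (chart P i z) = chart P i (act π [l] z) := by
  by_cases h : z ∈ D
  · rw [chart, if_pos h, pf, if_neg (P.far _ hz')]
    by_cases h2 : act π [l] z ∈ D
    · rw [if_pos h2, chart, if_pos h2]
    · rw [if_neg h2, chart, if_neg h2]
  · rw [chart, if_neg h, pf]
    simp only
    rw [← P.edge z hz l hz']
    by_cases h2 : act π [l] z ∈ D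
    · rw [if_pos ((P.mem _ hz').2 h2), chart, if_pos h2, P.left _ hz', sub_add_cancel]
    · rw [if_neg fun e => h2 ((P.mem _ hz').1 e), if_pos (P.near _ (P.maps _ le_rfl _ hz')),
        chart, if_neg h2]

/-- The periodic walk along a word. -/
noncomputable def pwalk (P : Pair π R D D') : List (A × Bool) → X × ℤ → X × ℤ
  | [], q => q
  | l :: w, q => pf P l (pwalk P w q)

theorem pwalk_chart (P : Pair π R D D') (i : ℤ) {z : X} {r : ℕ}
    (hz : z ∈ nb π r (bdry π D)) : ∀ w : List (A × Bool), w.length + r ≤ 2 * R →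
      pwalk P w (chart P i z) = chart P i (act π w z)
  | [], _ => by rw [pwalk, act_nil]
  | l :: w, hw => by
    rw [List.length_cons] at hw
    have h1 : act π w z ∈ nb π (2 * R) (bdry π D) := nb_mono (by omega) _ (act_mem_nb hz w)
    have h2 : act π (l :: w) z ∈ nb π (2 * R) (bdry π D) :=
      nb_mono (by simp; omega) _ (act_mem_nb hz (l :: w))
    rw [pwalk, pwalk_chart P i hz w (by omega), act_cons π l w z]
    exact pf_chart P i l h1 (by rwa [← act_cons])

theorem pwalk_rel (P : Pair π R D D') {w : List (A × Bool)} (hw : w.length ≤ R)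
    (h1 : π (FreeGroup.mk w) = 1) {q : X × ℤ} (hq : q.1 ∈ D \ D') : pwalk P w q = q := by
  obtain ⟨y, i⟩ := q
  have hfix : ∀ z : X, act π w z = z := fun z => by rw [act, h1, one_smul]
  by_cases hy : y ∈ nb π R (bdry π D)
  · have e : chart P i y = (y, i) := if_pos hq.1
    rw [← e, pwalk_chart P i hy w (by omega), hfix]
  by_cases hy' : y ∈ nb π R (bdry π D')
  · obtain ⟨hb, hψ⟩ := P.back R (by omega) y hy'
    have hnot : P.ψi y ∉ D := fun h => hq.2 (hψ ▸ (P.mem _ (nb_mono (by omega) _ hb)).2 h)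
    have e : chart P (i + 1) (P.ψi y) = (y, i) := by
      rw [chart, if_neg hnot, hψ, add_sub_cancel_right]
    rw [← e, pwalk_chart P (i + 1) hb w (by omega), hfix]
  have hstay : ∀ v : List (A × Bool), v.length ≤ R → act π v y ∈ D \ D' := fun v hv => by
    constructor
    · by_contra h
      exact hy (nb_mono hv _ (near_bdry (w := v) fun e => h (e.2 hq.1)))
    · intro h
      exact hy' (nb_mono hv _ (near_bdry (w := v) fun e => hq.2 (e.1 h)))
  suffices h : ∀ v : List (A × Bool), v.length ≤ R → pwalk P v (y, i) = (act π v y, i) by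
    rw [h w hw, hfix]
  intro v
  induction v with
  | nil => intro _; rw [pwalk, act_nil]
  | cons l v ih =>
    intro hv
    have h := hstay (l :: v) hv
    rw [act_cons] at h
    rw [pwalk, ih (by rw [List.length_cons] at hv; omega), pf, if_neg h.2, if_pos h.1,
      act_cons π l v y]

theorem pf_shift (P : Pair π R D D') (l : A × Bool) (q : X × ℤ) (k : ℤ) :
    pf P l (q.1, q.2 + k) = ((pf P l q).1, (pf P l q).2 + k) := by
  unfold pf
  split_ifs <;> simp [add_right_comm, sub_add_eq_add_sub]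

/-- The group acts on the periodic space, commuting with the shift. -/
theorem exists_periodic (P : Pair π R D D') (hπ : Function.Surjective π)
    {S : Set (FreeGroup A)} (hSπ : Subgroup.normalClosure S = π.ker) [DecidableEq A]
    (hL : ∀ s ∈ S, s.toWord.length ≤ R) (hR : 2 ≤ R) :
    ∃ σ : G →* Equiv.Perm {q : X × ℤ // q.1 ∈ D \ D'},
      (∀ l q, (σ (π (FreeGroup.mk [l])) q).1 = pf P l q.1) ∧
      ∀ g q (k : ℤ), (σ g ⟨(q.1.1, q.1.2 + k), q.2⟩).1 = ((σ g q).1.1, (σ g q).1.2 + k) := by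
  let W := {q : X × ℤ // q.1 ∈ D \ D'}
  let f : A × Bool → W → W := fun l q => ⟨pf P l q.1, pf_mem P (by omega) l q.2⟩
  have hcancel : ∀ (a : A) (s : Bool) (q : W), f (a, !s) (f (a, s) q) = q := by
    intro a s q
    refine Subtype.ext (pwalk_rel P (w := [(a, !s), (a, s)]) (by simp; omega) ?_ q.2)
    have h1 : FreeGroup.mk [(a, !s), (a, s)]
        = (FreeGroup.mk [(a, s)])⁻¹ * FreeGroup.mk [(a, s)] := by
      rw [FreeGroup.inv_mk, FreeGroup.mul_mk]
      simp [FreeGroup.invRev]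
    rw [h1, inv_mul_cancel, map_one]
  let e : A → Equiv.Perm W := fun a =>
    ⟨f (a, true), f (a, false), fun q => hcancel a true q, fun q => hcancel a false q⟩
  let θ : FreeGroup A →* Equiv.Perm W := FreeGroup.lift e
  have hθ : ∀ (w : List (A × Bool)) (q : W), (θ (FreeGroup.mk w) q).1 = pwalk P w q.1 := by
    intro w q
    induction w with
    | nil => simp [pwalk, ← FreeGroup.one_eq_mk]
    | cons l w ih =>
      have hmk : FreeGroup.mk (l :: w) = FreeGroup.mk [l] * FreeGroup.mk w := by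
        rw [FreeGroup.mul_mk]; rfl
      rw [hmk, map_mul, Equiv.Perm.mul_apply, pwalk, ← ih]
      obtain ⟨a, _ | _⟩ := l <;> simp [θ, FreeGroup.lift_mk, e, f]
  have hker : π.ker ≤ θ.ker := by
    rw [← hSπ]
    refine Subgroup.normalClosure_le_normal fun s hs =>
      MonoidHom.mem_ker.2 (Equiv.ext fun q => Subtype.ext ?_)
    rw [← FreeGroup.mk_toWord (x := s), hθ]
    refine pwalk_rel P (hL s hs) ?_ q.2
    rw [FreeGroup.mk_toWord]
    exact MonoidHom.mem_ker.1 (hSπ ▸ Subgroup.subset_normalClosure hs)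
  let σ : G →* Equiv.Perm W := π.liftOfSurjective hπ ⟨θ, hker⟩
  have hσ : ∀ x, σ (π x) = θ x := fun x =>
    MonoidHom.liftOfRightInverse_comp_apply π _ _ ⟨θ, hker⟩ x
  refine ⟨σ, fun l q => by rw [hσ, hθ]; rfl, fun g q k => ?_⟩
  obtain ⟨x, rfl⟩ := hπ g
  rw [hσ, ← FreeGroup.mk_toWord (x := x), hθ, hθ]
  induction x.toWord with
  | nil => rfl
  | cons l w ih => rw [pwalk, pwalk, ih, pf_shift]

/-- A pair of cuts is impossible in a periodic group. -/
theorem Pair.false (P : Pair π R D D') (hπ : Function.Surjective π) {S : Set (FreeGroup A)}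
    (hSπ : Subgroup.normalClosure S = π.ker) [DecidableEq A] (hL : ∀ s ∈ S, s.toWord.length ≤ R)
    (hR : 2 ≤ R) (htor : ∀ g : G, IsOfFinOrder g) (hfin : (bdry π D).Finite)
    (hne : (bdry π D).Nonempty) (hne' : D'.Nonempty)
    (hconn : ∀ a ∈ D, ∀ b ∈ D, Relation.ReflTransGen (Step π D) a b) : False := by
  obtain ⟨σ, hσl, hσs⟩ := exists_periodic P hπ hSπ hL hR
  have hB : ∀ b ∈ bdry π D, b ∈ D \ D' := fun b hb => ⟨hb.1, P.far _ (subset_nb _ _ hb)⟩
  have hadv : ∀ b : bdry π D, ∃ g, ∃ b' : bdry π D,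
      (σ g ⟨((b : X), 0), hB _ b.2⟩).1 = ((b' : X), 1) := by
    rintro ⟨b, hb⟩
    obtain ⟨d, hd⟩ := hne'
    suffices h : ∀ z, Relation.ReflTransGen (Step π D) b z →
        (∃ g, ∃ b' : bdry π D, (σ g ⟨(b, 0), hB _ hb⟩).1 = ((b' : X), 1)) ∨
          (z ∉ D' ∧ ∃ g, (σ g ⟨(b, 0), hB _ hb⟩).1 = (z, 0)) by
      rcases h d (hconn b hb.1 d (P.sub hd)) with h | h
      · exact h
      · exact absurd hd h.1
    intro z hz
    induction hz with
    | refl => exact Or.inr ⟨(hB _ hb).2, 1, by simp⟩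
    | @tail y z _ hyz ih =>
      rcases ih with h | ⟨hy, g, hg⟩
      · exact Or.inl h
      obtain ⟨hyD, hzD, l, rfl⟩ := hyz
      have e : (σ (π (FreeGroup.mk [l]) * g) ⟨(b, 0), hB _ hb⟩).1 = pf P l (y, 0) := by
        rw [map_mul, Equiv.Perm.mul_apply, hσl, hg]
      by_cases hz' : act π [l] y ∈ D'
      · have hzb : act π [l] y ∈ bdry π D' := by
          refine ⟨hz', (l.1, !l.2), ?_⟩
          have e2 : [(l.1, !l.2)] = FreeGroup.invRev [l] := by simp [FreeGroup.invRev]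
          rw [e2, act_invRev]
          exact hy
        refine Or.inl ⟨_, ⟨_, bdry_back P hzb⟩, e.trans ?_⟩
        simp [pf, hz']
      · refine Or.inr ⟨hz', _, e.trans ?_⟩
        simp [pf, hz', hzD]
  choose g nxt hnxt using hadv
  have : Finite (bdry π D) := hfin.to_subtype
  obtain ⟨b, hb⟩ := hne
  have hit : ∀ (j : ℕ) (c : bdry π D), ∃ h, (σ h ⟨((c : X), 0), hB _ c.2⟩).1 =
      (((nxt^[j] c : bdry π D) : X), (j : ℤ)) := by
    intro j c
    induction j with
    | zero => exact ⟨1, by simp⟩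
    | succ j ih =>
      obtain ⟨h, hh⟩ := ih
      refine ⟨g (nxt^[j] c) * h, ?_⟩
      have e : σ h ⟨((c : X), 0), hB _ c.2⟩ =
          ⟨(((nxt^[j] c : bdry π D) : X), 0 + (j : ℤ)), hB _ (nxt^[j] c).2⟩ :=
        Subtype.ext (by rw [hh, zero_add])
      rw [map_mul, Equiv.Perm.mul_apply, e,
        hσs _ ⟨(((nxt^[j] c : bdry π D) : X), 0), hB _ (nxt^[j] c).2⟩, hnxt,
        Function.iterate_succ_apply', Nat.cast_succ, add_comm (1 : ℤ)]
  obtain ⟨i, j, hij, heq⟩ :=
    Finite.exists_ne_map_eq_of_infinite fun j : ℕ => nxt^[j] (⟨b, hb⟩ : bdry π D)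
  wlog hlt : i < j generalizing i j
  · exact this j i hij.symm heq.symm (by omega)
  set c := nxt^[i] (⟨b, hb⟩ : bdry π D)
  have hc : nxt^[j - i] c = c := by
    rw [← Function.iterate_add_apply, Nat.sub_add_cancel hlt.le]
    exact heq.symm
  obtain ⟨h, hh⟩ := hit (j - i) c
  rw [hc] at hh
  have hpow : ∀ m : ℕ, (σ (h ^ m) ⟨((c : X), 0), hB _ c.2⟩).1 =
      ((c : X), (m : ℤ) * ((j - i : ℕ) : ℤ)) := by
    intro m
    induction m with
    | zero => simp
    | succ m ih =>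
      have e : σ (h ^ m) ⟨((c : X), 0), hB _ c.2⟩ =
          ⟨((c : X), 0 + (m : ℤ) * ((j - i : ℕ) : ℤ)), hB _ c.2⟩ :=
        Subtype.ext (by rw [ih, zero_add])
      rw [pow_succ', map_mul, Equiv.Perm.mul_apply, e, hσs _ ⟨((c : X), 0), hB _ c.2⟩, hh,
        Nat.cast_succ, add_mul, one_mul, add_comm]
  obtain ⟨m, hm, hm1⟩ := (htor h).exists_pow_eq_one
  have h0 := congrArg Prod.snd (hpow m)
  rw [hm1, map_one, Equiv.Perm.one_apply] at h0
  have hpos : 0 < (m : ℤ) * ((j - i : ℕ) : ℤ) :=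
    mul_pos (by exact_mod_cast hm) (by exact_mod_cast Nat.sub_pos_of_lt hlt)
  exact absurd h0 hpos.ne

end Vale.Agent.P192.Thin
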