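import Mathlib

/-!
P192: cuts of the orbit graph of an action, and the neighbourhoods of finite sets in it.
-/

namespace Vale.Agent.P192.Thin

variable {A : Type*} {G X : Type*} [Group G] [MulAction G X]

/-- The point reached from x by the word w. -/
def act (π : FreeGroup A →* G) (w : List (A × Bool)) (x : X) : X := π (FreeGroup.mk w) • x

theorem act_nil (π : FreeGroup A →* G) (x : X) : act π [] x = x := by
  simp [act, ← FreeGroup.one_eq_mk]

theorem act_append (π : FreeGroup A →* G) (w v : List (A × Bool)) (x : X) :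
    act π (w ++ v) x = act π w (act π v x) := by
  rw [act, act, act, ← mul_smul, ← map_mul, FreeGroup.mul_mk]

theorem act_cons (π : FreeGroup A →* G) (l : A × Bool) (w : List (A × Bool)) (x : X) :
    act π (l :: w) x = act π [l] (act π w x) :=
  act_append π [l] w x

theorem act_invRev (π : FreeGroup A →* G) (w : List (A × Bool)) (x : X) :
    act π (FreeGroup.invRev w) (act π w x) = x := by
  simp only [act, ← FreeGroup.inv_mk, map_inv, inv_smul_smul]

/-- The points of D with a neighbour outside. -/
def bdry (π : FreeGroup A →* G) (D : Set X) : Set X :=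
  {x | x ∈ D ∧ ∃ l, act π [l] x ∉ D}

/-- The points within r steps of F. -/
def nb (π : FreeGroup A →* G) (r : ℕ) (F : Set X) : Set X :=
  {z | ∃ x ∈ F, ∃ w : List (A × Bool), w.length ≤ r ∧ act π w x = z}

variable {π : FreeGroup A →* G}

theorem nb_mono {r r' : ℕ} (h : r ≤ r') (F : Set X) : nb π r F ⊆ nb π r' F :=
  fun _ ⟨x, hx, w, hw, e⟩ => ⟨x, hx, w, hw.trans h, e⟩

theorem subset_nb (r : ℕ) (F : Set X) : F ⊆ nb π r F :=
  fun x hx => ⟨x, hx, [], Nat.zero_le _, act_nil π x⟩

theorem act_mem_nb {r : ℕ} {F : Set X} {z : X} (h : z ∈ nb π r F) (w : List (A × Bool)) :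
    act π w z ∈ nb π (w.length + r) F := by
  obtain ⟨x, hx, v, hv, rfl⟩ := h
  exact ⟨x, hx, w ++ v, by simp only [List.length_append]; omega, act_append π w v x⟩

theorem nb_symm {r : ℕ} {x z : X} (h : z ∈ nb π r {x}) : x ∈ nb π r {z} := by
  obtain ⟨_, rfl, w, hw, rfl⟩ := h
  exact ⟨_, rfl, FreeGroup.invRev w, by rwa [FreeGroup.invRev_length], act_invRev π w _⟩

theorem nb_finite [Finite A] (r : ℕ) {F : Set X} (hF : F.Finite) : (nb π r F).Finite := by
  have : Finite (A × Bool) := inferInstance
  refine ((hF.prod (List.finite_length_le (A × Bool) r)).image fun q => act π q.2 q.1).subset ?_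
  rintro z ⟨x, hx, w, hw, rfl⟩
  exact ⟨(x, w), ⟨hx, hw⟩, rfl⟩

/-- A walk between D and its complement passes the boundary. -/
theorem near_bdry {D : Set X} {y : X} : ∀ {w : List (A × Bool)},
    ¬ (act π w y ∈ D ↔ y ∈ D) → y ∈ nb π w.length (bdry π D)
  | [], h => absurd (by rw [act_nil]) h
  | l :: w, h => by
    by_cases h' : act π w y ∈ D ↔ y ∈ D
    · by_cases hw : act π w y ∈ D
      · have hb : act π w y ∈ bdry π D :=
          ⟨hw, l, fun hl => h ⟨fun _ => h'.1 hw, fun _ => by rw [act_cons π l w y]; exact hl⟩⟩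
        refine ⟨_, hb, FreeGroup.invRev w, ?_, act_invRev π w y⟩
        rw [FreeGroup.invRev_length, List.length_cons]; omega
      · have hl : act π (l :: w) y ∈ D := by
          by_contra hl
          exact h ⟨fun e => absurd e hl, fun e => absurd (h'.2 e) hw⟩
        have hb : act π (l :: w) y ∈ bdry π D := by
          refine ⟨hl, (l.1, !l.2), ?_⟩
          have e : [(l.1, !l.2)] = FreeGroup.invRev [l] := by simp [FreeGroup.invRev]
          rw [act_cons π l w y, e, act_invRev]
          exact hw
        refine ⟨_, hb, FreeGroup.invRev (l :: w), ?_, act_invRev π (l :: w) y⟩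
        rw [FreeGroup.invRev_length]
    · exact nb_mono (Nat.le_succ _) _ (near_bdry h')

/-- One step inside D. -/
def Step (π : FreeGroup A →* G) (D : Set X) (a b : X) : Prop :=
  a ∈ D ∧ b ∈ D ∧ ∃ l, act π [l] a = b

end Vale.Agent.P192.Thin
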