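import Vale.Agent.P192.Thin.Core

/-!
P192: an escaping nested sequence of connected sets with boundaries of bounded size contains two
cuts of the same local type.
-/

namespace Vale.Agent.P192.Thin

variable {A G X : Type*} [Group G] [MulAction G X] {π : FreeGroup A →* G}

theorem mem_of_reach {D D' : Set X} (hclosed : bdry π D = ∅) {a b : X} (ha : a ∈ D)
    (h : Relation.ReflTransGen (Step π D') a b) : b ∈ D := by
  induction h with
  | refl => exact ha
  | @tail u v _ huv ih =>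
    obtain ⟨-, -, l, rfl⟩ := huv
    by_contra hv
    exact (hclosed ▸ (⟨ih, l, hv⟩ : u ∈ bdry π D) : u ∈ (∅ : Set X))

/-- Far cuts with equal neighbourhood types form a pair. -/
theorem exists_pair {R : ℕ} {D D' : Set X} (hR : 1 ≤ R) {ι : Type*} (e : ι → X) (e' : ι → X)
    (he : Set.range e = bdry π D) (he' : Set.range e' = bdry π D') (hsub : D' ⊆ D)
    (hfar : ∀ z ∈ nb π (4 * R) (bdry π D), z ∉ D')
    (heq : ∀ i j w v, w.length ≤ 2 * R → v.length ≤ 2 * R →
      (act π w (e i) = act π v (e j) ↔ act π w (e' i) = act π v (e' j)))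
    (hedge : ∀ i j l w v, w.length ≤ 2 * R → v.length ≤ 2 * R →
      (act π [l] (act π w (e i)) = act π v (e j) ↔ act π [l] (act π w (e' i)) = act π v (e' j)))
    (hmem : ∀ i w, w.length ≤ 2 * R → (act π w (e i) ∈ D ↔ act π w (e' i) ∈ D')) :
    Nonempty (Pair π R D D') := by
  classical
  let f : X → X := fun z =>
    if h : ∃ i, ∃ w : List (A × Bool), w.length ≤ 2 * R ∧ act π w (e i) = z then
      act π h.choose_spec.choose (e' h.choose) else z
  let fi : X → X := fun z =>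
    if h : ∃ i, ∃ w : List (A × Bool), w.length ≤ 2 * R ∧ act π w (e' i) = z then
      act π h.choose_spec.choose (e h.choose) else z
  have hf : ∀ i w, w.length ≤ 2 * R → f (act π w (e i)) = act π w (e' i) := by
    intro i w hw
    have h : ∃ j, ∃ v : List (A × Bool), v.length ≤ 2 * R ∧ act π v (e j) = act π w (e i) :=
      ⟨i, w, hw, rfl⟩
    show dite _ _ _ = _
    rw [dif_pos h]
    exact (heq _ _ _ _ h.choose_spec.choose_spec.1 hw).1 h.choose_spec.choose_spec.2
  have hfi : ∀ i w, w.length ≤ 2 * R → fi (act π w (e' i)) = act π w (e i) := by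
    intro i w hw
    have h : ∃ j, ∃ v : List (A × Bool), v.length ≤ 2 * R ∧ act π v (e' j) = act π w (e' i) :=
      ⟨i, w, hw, rfl⟩
    show dite _ _ _ = _
    rw [dif_pos h]
    exact (heq _ _ _ _ h.choose_spec.choose_spec.1 hw).2 h.choose_spec.choose_spec.2
  have hz : ∀ r, ∀ z ∈ nb π r (bdry π D), ∃ i, ∃ w : List (A × Bool),
      w.length ≤ r ∧ act π w (e i) = z := by
    rintro r z ⟨x, hx, w, hw, rfl⟩
    rw [← he] at hx
    obtain ⟨i, rfl⟩ := hx
    exact ⟨i, w, hw, rfl⟩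
  have hz' : ∀ r, ∀ z ∈ nb π r (bdry π D'), ∃ i, ∃ w : List (A × Bool),
      w.length ≤ r ∧ act π w (e' i) = z := by
    rintro r z ⟨x, hx, w, hw, rfl⟩
    rw [← he'] at hx
    obtain ⟨i, rfl⟩ := hx
    exact ⟨i, w, hw, rfl⟩
  refine ⟨⟨f, fi, hsub, fun z h => hfar z (nb_mono (by omega) _ h), ?_, ?_, ?_, ?_, ?_, ?_⟩⟩
  · intro z hz0
    by_contra hD
    obtain ⟨x, hx, w, hw, rfl⟩ := hz0
    have h : ¬ (act π w x ∈ D ↔ x ∈ D) := fun e => hD (e.2 (hsub hx.1))
    exact hfar x (nb_mono (by omega) _ (near_bdry h)) hx.1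
  · intro r hr z hz0
    obtain ⟨i, w, hw, rfl⟩ := hz r z hz0
    rw [hf i w (hw.trans hr)]
    exact ⟨e' i, he' ▸ Set.mem_range_self i, w, hw, rfl⟩
  · intro z hz0
    obtain ⟨i, w, hw, rfl⟩ := hz _ z hz0
    rw [hf i w hw, hfi i w hw]
  · intro r hr z hz0
    obtain ⟨i, w, hw, rfl⟩ := hz' r z hz0
    rw [hfi i w (hw.trans hr)]
    exact ⟨⟨e i, he ▸ Set.mem_range_self i, w, hw, rfl⟩, hf i w (hw.trans hr)⟩
  · intro z hz0
    obtain ⟨i, w, hw, rfl⟩ := hz _ z hz0
    rw [hf i w hw]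
    exact (hmem i w hw).symm
  · intro z hz0 l hz1
    obtain ⟨i, w, hw, rfl⟩ := hz _ z hz0
    obtain ⟨j, v, hv, hj⟩ := hz _ _ hz1
    rw [hf i w hw, ← hj, hf j v hv, ((hedge i j l w v hw hv).1 hj.symm)]

/-- No thin ends, for the letters of a finite presentation. -/
theorem no_thin_letters [Finite A] [DecidableEq A] (hπ : Function.Surjective π)
    {S : Set (FreeGroup A)} (hS : S.Finite) (hSπ : Subgroup.normalClosure S = π.ker)
    (htor : ∀ g : G, IsOfFinOrder g) (K : ℕ) (D : ℕ → Set X)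
    (hanti : Antitone D) (hne : ∀ k, (D k).Nonempty)
    (hconn : ∀ k, ∀ a ∈ D k, ∀ b ∈ D k, Relation.ReflTransGen (Step π (D k)) a b)
    (hfin : ∀ k, (bdry π (D k)).Finite) (hcard : ∀ k, (bdry π (D k)).ncard ≤ K)
    (hesc : ∀ x, ∃ k, x ∉ D k) : False := by
  classical
  obtain ⟨L, hL'⟩ := (hS.image fun s => s.toWord.length).bddAbove
  set R := max L 2
  have hL : ∀ s ∈ S, s.toWord.length ≤ R := fun s hs =>
    (hL' ⟨s, hs, rfl⟩).trans (le_max_left _ _)
  have hR : 2 ≤ R := le_max_right _ _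
  have escF : ∀ F : Set X, F.Finite → ∃ k, ∀ x ∈ F, x ∉ D k := by
    intro F hF
    choose k hk using hesc
    obtain ⟨M, hM⟩ := (hF.image k).bddAbove
    exact ⟨M, fun x hx h => hk x (hanti (hM ⟨x, hx, rfl⟩) h)⟩
  obtain ⟨z, hz⟩ := hne 0
  obtain ⟨k₀, hk₀⟩ := hesc z
  have hbne : ∀ k, k₀ ≤ k → (bdry π (D k)).Nonempty := by
    intro k hk
    by_contra h
    obtain ⟨a, ha⟩ := hne k
    exact hk₀ (hanti hk (mem_of_reach (Set.not_nonempty_iff_eq_empty.1 h) ha
      (hconn 0 a (hanti (Nat.zero_le k) ha) z hz)))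
  choose nxt hnxt using fun k => escF _ (nb_finite (π := π) (4 * R) (hfin k))
  let seq : ℕ → ℕ := fun j => Nat.rec k₀ (fun _ s => max (s + 1) (nxt s)) j
  have hseq : ∀ j, seq j + 1 ≤ seq (j + 1) ∧ nxt (seq j) ≤ seq (j + 1) := fun j =>
    ⟨le_max_left _ _, le_max_right _ _⟩
  have hmono : StrictMono seq := strictMono_nat_of_lt_succ fun j => (hseq j).1
  have hge : ∀ j, k₀ ≤ seq j := fun j => hmono.monotone (Nat.zero_le j)
  have henum : ∀ j, ∃ e : Fin K → X, Set.range e = bdry π (D (seq j)) := by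
    intro j
    have hne' := (hbne _ (hge j))
    have := (hfin (seq j)).fintype
    have hpos : 0 < K := ((Set.ncard_pos (hfin _)).2 hne').trans_le (hcard _)
    have : Nonempty (bdry π (D (seq j))) := hne'.to_subtype
    obtain ⟨ι⟩ := Function.Embedding.nonempty_of_card_le
      (show Fintype.card (bdry π (D (seq j))) ≤ Fintype.card (Fin K) by
        rw [Fintype.card_fin, ← Nat.card_eq_fintype_card, Nat.card_coe_set_eq]; exact hcard _)
    refine ⟨fun i => Subtype.val (Function.invFun (⇑ι) i), ?_⟩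
    ext x
    constructor
    · rintro ⟨i, rfl⟩; exact Subtype.mem _
    · intro hx
      exact ⟨ι ⟨x, hx⟩, by simp [Function.leftInverse_invFun ι.injective ⟨x, hx⟩]⟩
  choose e he using henum
  let Wd := {w : List (A × Bool) // w.length ≤ 2 * R}
  have : Finite Wd := (List.finite_length_le (A × Bool) (2 * R)).to_subtype
  let type : ℕ → (Fin K × Wd → Fin K × Wd → Prop) ×
      (A × Bool → Fin K × Wd → Fin K × Wd → Prop) × (Fin K × Wd → Prop) := fun j =>
    (fun a b => act π a.2.1 (e j a.1) = act π b.2.1 (e j b.1),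
      fun l a b => act π [l] (act π a.2.1 (e j a.1)) = act π b.2.1 (e j b.1),
      fun a => act π a.2.1 (e j a.1) ∈ D (seq j))
  obtain ⟨i, j, hij, htype⟩ := Finite.exists_ne_map_eq_of_infinite type
  wlog hlt : i < j generalizing i j
  · exact this j i hij.symm htype.symm (by omega)
  simp only [type, Prod.mk.injEq] at htype
  obtain ⟨h1, h2, h3⟩ := htype
  have hle : nxt (seq i) ≤ seq j := (hseq i).2.trans (hmono.monotone hlt)
  obtain ⟨P⟩ := exists_pair (R := R) (by omega) (e i) (e j) (he i) (he j)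
    (hanti (hmono.monotone hlt.le)) (fun x hx h => hnxt _ x hx (hanti hle h))
    (fun a b w v hw hv => iff_of_eq (congrFun₂ h1 (a, ⟨w, hw⟩) (b, ⟨v, hv⟩)))
    (fun a b l w v hw hv => iff_of_eq (congrFun (congrFun₂ h2 l (a, ⟨w, hw⟩)) (b, ⟨v, hv⟩)))
    (fun a w hw => iff_of_eq (congrFun h3 (a, ⟨w, hw⟩)))
  exact P.false hπ hSπ hL hR htor (hfin _) (hbne _ (hge i)) (hne _) (hconn _)

end Vale.Agent.P192.Thin
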