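import Vale.Agent.P192.Thin.Transfer

/-!
P192: in an infinite orbit of a finitely presented periodic group the spheres grow without bound.
-/

namespace Vale.Agent.P192.Thin

variable {G X : Type*} [Group G] [MulAction G X]

/-- The ball of radius n around x in the orbit graph of S. -/
def ball (S : Finset G) (x : X) (n : ℕ) : Set X :=
  {y | ∃ w : List G, w.length ≤ n ∧ (∀ g ∈ w, g ∈ S ∨ g⁻¹ ∈ S) ∧ w.prod • x = y}

theorem ball_mono (S : Finset G) (x : X) {n m : ℕ} (h : n ≤ m) : ball S x n ⊆ ball S x m :=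
  fun _ ⟨w, hw, h1, e⟩ => ⟨w, hw.trans h, h1, e⟩

theorem smul_mem_ball {S : Finset G} {x z : X} {n : ℕ} {g : G} (hg : g ∈ S ∨ g⁻¹ ∈ S)
    (h : z ∈ ball S x n) : g • z ∈ ball S x (n + 1) := by
  obtain ⟨w, hw, h1, rfl⟩ := h
  refine ⟨g :: w, by simp only [List.length_cons]; omega, ?_, by rw [List.prod_cons, mul_smul]⟩
  simp only [List.mem_cons, forall_eq_or_imp]
  exact ⟨hg, h1⟩

theorem gstep_symm {S : Finset G} {D : Set X} {a b : X} (h : GStep S D a b) : GStep S D b a := by
  obtain ⟨ha, hb, s, hs, h⟩ := h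
  exact ⟨hb, ha, s, hs, h.symm⟩

/-- Spheres grow without bound in every infinite orbit. -/
theorem spheres [Group.IsFinitelyPresented G] (htor : ∀ g : G, IsOfFinOrder g) (S : Finset G)
    (hgen : Subgroup.closure (S : Set G) = ⊤) (x : X) (hinf : (MulAction.orbit G x).Infinite)
    (K : ℕ) :
    ∃ N, ∀ n, N ≤ n → ¬ ∃ T : Finset X, T.card ≤ K ∧
      ball S x (n + 1) \ ball S x n ⊆ ↑T := by
  classical
  by_contra hcon
  push Not at hcon
  choose m hm T hTc hT using hcon
  let C : ℕ → Set X := fun k => MulAction.orbit G x \ ball S x (m k)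
  let comp : ℕ → X → Set X := fun k a => {z | Relation.ReflTransGen (GStep S (C k)) a z ∧ z ∈ C k}
  have hword : ∀ g : G, ∃ w : List G, (∀ a ∈ w, a ∈ S ∨ a⁻¹ ∈ S) ∧ w.prod = g := by
    intro g
    have hg : g ∈ (Subgroup.closure (S : Set G)).toSubmonoid := by rw [hgen]; trivial
    rw [Subgroup.closure_toSubmonoid] at hg
    obtain ⟨w, hw, rfl⟩ := Submonoid.exists_list_of_mem_closure hg
    exact ⟨w, fun a ha => by simpa using hw a ha, rfl⟩
  have horb : ∀ n, ball S x n ⊆ MulAction.orbit G x := fun n _ ⟨w, _, _, e⟩ => ⟨w.prod, e⟩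
  have hcover : ∀ z ∈ MulAction.orbit G x, ∃ n, z ∈ ball S x n := by
    rintro _ ⟨g, rfl⟩
    obtain ⟨w, hw, rfl⟩ := hword g
    exact ⟨w.length, w, le_rfl, hw, rfl⟩
  have hball : ∀ n, (ball S x n).Finite := by
    intro n
    induction n with
    | zero =>
      refine (Set.finite_singleton x).subset ?_
      rintro _ ⟨w, hw, -, rfl⟩
      rw [List.length_eq_zero_iff.1 (Nat.le_zero.1 hw)]
      simp
    | succ n ih =>
      refine (ih.union ((Finset.finite_toSet (S ∪ S.image fun s => s⁻¹)).image2 (fun g z => g • z)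
        ih)).subset ?_
      rintro _ ⟨w, hw, h1, rfl⟩
      rcases w with _ | ⟨g, w⟩
      · exact Or.inl ⟨[], by simp, by simp, rfl⟩
      · refine Or.inr ⟨g, ?_, w.prod • x, ⟨w, by simp at hw; omega,
          fun a ha => h1 a (List.mem_cons_of_mem _ ha), rfl⟩, by simp only [List.prod_cons, mul_smul]⟩
        rcases h1 g List.mem_cons_self with h | h
        · exact Finset.mem_union_left _ h
        · exact Finset.mem_union_right _ (Finset.mem_image.2 ⟨g⁻¹, h, inv_inv g⟩)
  have hsphere : ∀ k, ∀ z ∈ C k, ∀ g : G, (g ∈ S ∨ g⁻¹ ∈ S) → g • z ∉ C k → z ∈ T k := by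
    intro k z hz g hg hgz
    have horbz : g • z ∈ MulAction.orbit G x := by
      obtain ⟨h, hh⟩ := hz.1
      exact ⟨g * h, by rw [← hh]; exact mul_smul g h x⟩
    have hb : g • z ∈ ball S x (m k) := by
      by_contra hb
      exact hgz ⟨horbz, hb⟩
    refine hT k ⟨?_, hz.2⟩
    have := smul_mem_ball (g := g⁻¹) (by rwa [inv_inv, or_comm]) hb
    rwa [inv_smul_smul] at this
  have hreach : ∀ k, ∀ z ∈ C k, ∃ a ∈ T k, z ∈ comp k a := by
    intro k z hz
    obtain ⟨n, hn⟩ := hcover z hz.1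
    induction n generalizing z with
    | zero => exact absurd (ball_mono S x (Nat.zero_le _) hn) hz.2
    | succ n ih =>
      by_cases hle : n ≤ m k
      · exact ⟨z, hT k ⟨ball_mono S x (by omega) hn, hz.2⟩, .refl, hz⟩
      obtain ⟨w, hw, h1, e⟩ := hn
      rcases w with _ | ⟨g, w⟩
      · exact absurd ⟨[], Nat.zero_le _, by simp, e⟩ hz.2
      set z' := w.prod • x with hz'
      have hgz : g • z' = z := by rw [hz', ← mul_smul, ← List.prod_cons, e]
      have hz'b : z' ∈ ball S x n :=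
        ⟨w, by simp at hw; omega, fun a ha => h1 a (List.mem_cons_of_mem _ ha), rfl⟩
      have hg := h1 g List.mem_cons_self
      by_cases hc : z' ∈ C k
      · obtain ⟨a, ha, hac, -⟩ := ih z' hc hz'b
        refine ⟨a, ha, hac.tail ⟨hc, hz, ?_⟩, hz⟩
        rcases hg with h | h
        · exact ⟨g, h, Or.inl hgz⟩
        · exact ⟨g⁻¹, h, Or.inr (by rw [← hgz, inv_smul_smul])⟩
      · refine ⟨z, hsphere k z hz g⁻¹ (by rwa [inv_inv, or_comm]) ?_, .refl, hz⟩
        rwa [← hgz, inv_smul_smul]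
  obtain ⟨U, hU⟩ := Ultrafilter.exists_le (f := Filter.cofinite ⊓ Filter.principal
    (MulAction.orbit G x)) (h := Filter.cofinite_inf_principal_neBot_iff.2 hinf)
  have hCU : ∀ k, C k ∈ U := fun k => hU (Filter.mem_inf_of_inter
    ((hball (m k)).compl_mem_cofinite) (Filter.mem_principal_self _) fun z hz => ⟨hz.2, hz.1⟩)
  have hpick : ∀ k, ∃ a ∈ T k, comp k a ∈ U := by
    intro k
    have hsub : (⋃ a ∈ (T k : Set X), comp k a) ∈ U :=
      Filter.mem_of_superset (hCU k) fun z hz => by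
        obtain ⟨a, ha, h⟩ := hreach k z hz
        exact Set.mem_biUnion ha h
    exact (Ultrafilter.finite_biUnion_mem_iff (Finset.finite_toSet _)).1 hsub
  choose a haT haU using hpick
  let seq : ℕ → ℕ := fun j => Nat.rec (0 : ℕ) (fun _ s => m s + 1) j
  have hm' : ∀ j, m (seq j) < m (seq (j + 1)) := fun j =>
    lt_of_lt_of_le (Nat.lt_succ_self _) (hm (seq (j + 1)))
  have hmono : StrictMono fun j => m (seq j) := strictMono_nat_of_lt_succ hm'
  have hin : ∀ j, ∀ z ∈ comp (seq j) (a (seq j)), Relation.ReflTransGen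
      (GStep S (comp (seq j) (a (seq j)))) (a (seq j)) z := by
    intro j z hz
    obtain ⟨hz, -⟩ := hz
    induction hz with
    | refl => exact .refl
    | @tail b c hab hbc ih => exact ih.tail ⟨⟨hab, hbc.1⟩, ⟨hab.tail hbc, hbc.2.1⟩, hbc.2.2⟩
  refine no_thin htor S hgen K (fun j => comp (seq j) (a (seq j)))
    (antitone_nat_of_succ_le fun j z hz => ?_) (fun j => U.nonempty_of_mem (haU _)) ?_ ?_ ?_
  · obtain ⟨y, hy, hy'⟩ := U.nonempty_of_mem (Filter.inter_mem (haU (seq j)) (haU (seq (j + 1))))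
    have hC : C (seq (j + 1)) ⊆ C (seq j) := fun u hu =>
      ⟨hu.1, fun h => hu.2 (ball_mono S x (hm' j).le h)⟩
    have hstep : ∀ u v, GStep S (C (seq (j + 1))) u v → GStep S (C (seq j)) u v :=
      fun u v h => ⟨hC h.1, hC h.2.1, h.2.2⟩
    have hrev : Relation.ReflTransGen (GStep S (C (seq (j + 1)))) y (a (seq (j + 1))) :=
      Relation.ReflTransGen.mono (fun u v h => gstep_symm h) _ _ hy'.1.swap
    exact ⟨(hy.1.trans (Relation.ReflTransGen.mono hstep _ _ hrev)).trans
      (Relation.ReflTransGen.mono hstep _ _ hz.1), hC hz.2⟩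
  · intro j u hu v hv
    exact (Relation.ReflTransGen.mono (fun _ _ h => gstep_symm h) _ _ (hin j u hu).swap).trans
      (hin j v hv)
  · intro j
    refine ⟨T (seq j), hTc _, fun z hz hout => ?_⟩
    have key : ∀ g : G, (g ∈ S ∨ g⁻¹ ∈ S) → g • z ∉ comp (seq j) (a (seq j)) →
        z ∈ T (seq j) := by
      intro g hg hgz
      refine hsphere _ z hz.2 g hg fun hC => hgz ⟨hz.1.tail ⟨hz.2, hC, ?_⟩, hC⟩
      rcases hg with h | h
      · exact ⟨g, h, Or.inl rfl⟩
      · exact ⟨g⁻¹, h, Or.inr (inv_smul_smul g z)⟩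
    obtain ⟨s, hs, h | h⟩ := hout
    · exact key s (Or.inl hs) h
    · exact key s⁻¹ (Or.inr (by rwa [inv_inv])) h
  · intro z
    by_cases hz : z ∈ MulAction.orbit G x
    · obtain ⟨n, hn⟩ := hcover z hz
      exact ⟨n, fun h => h.2.2 (ball_mono S x (hmono.id_le n) hn)⟩
    · exact ⟨0, fun h => hz h.2.1⟩

end Vale.Agent.P192.Thin

namespace Vale.Agent.P192.Thin

variable {G X : Type*} [Group G] [MulAction G X]

theorem ball_finite (S : Finset G) (x : X) (n : ℕ) : (ball S x n).Finite := by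
  classical
  have := (List.finite_length_le {g : G // g ∈ S ∪ S.image fun s => s⁻¹} n).image
    fun w => (w.map Subtype.val).prod • x
  refine this.subset ?_
  rintro _ ⟨w, hw, h1, rfl⟩
  have h2 : ∀ g ∈ w, g ∈ S ∪ S.image fun s => s⁻¹ := fun g hg => by
    rcases h1 g hg with h | h
    · exact Finset.mem_union_left _ h
    · exact Finset.mem_union_right _ (Finset.mem_image.2 ⟨g⁻¹, h, inv_inv g⟩)
  refine ⟨w.attach.map fun g => ⟨g.1, h2 g.1 g.2⟩, by simpa using hw, ?_⟩
  simp [List.map_map, Function.comp_def]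

/-- The cardinality form. -/
theorem spheres_ncard [Group.IsFinitelyPresented G] (htor : ∀ g : G, IsOfFinOrder g) (S : Finset G)
    (hgen : Subgroup.closure (S : Set G) = ⊤) (x : X) (hinf : (MulAction.orbit G x).Infinite)
    (K : ℕ) : ∃ N, ∀ n, N ≤ n → K < (ball S x (n + 1) \ ball S x n).ncard := by
  obtain ⟨N, hN⟩ := spheres htor S hgen x hinf K
  refine ⟨N, fun n hn => not_le.1 fun h => hN n hn ?_⟩
  have hf : (ball S x (n + 1) \ ball S x n).Finite := (ball_finite S x (n + 1)).sdiff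
  exact ⟨hf.toFinset, by rwa [← Set.ncard_eq_toFinset_card _ hf], by simp⟩

end Vale.Agent.P192.Thin
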