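import Vale.Agent.P192.Thin.NoEnd

/-!
P192: the same for an arbitrary finite generating set.
-/

namespace Vale.Agent.P192.Thin

variable {G X : Type*} [Group G] [MulAction G X]

/-- One step inside D by a generator or its inverse. -/
def GStep (S : Finset G) (D : Set X) (a b : X) : Prop :=
  a ∈ D ∧ b ∈ D ∧ ∃ s ∈ S, s • a = b ∨ s • b = a

theorem exists_sum_presentation [Group.IsFinitelyPresented G] (S : Finset G) :
    ∃ (n : ℕ) (π : FreeGroup (Fin n ⊕ S) →* G) (R : Set (FreeGroup (Fin n ⊕ S))),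
      Function.Surjective π ∧ R.Finite ∧ Subgroup.normalClosure R = π.ker ∧
        ∀ s : S, π (FreeGroup.of (Sum.inr s)) = (s : G) := by
  obtain ⟨n, π₀, hπ₀, R₀, hR₀, hRπ⟩ := Group.IsFinitelyPresented.out (G := G)
  choose w hw using fun s : S => hπ₀ (s : G)
  let π : FreeGroup (Fin n ⊕ S) →* G :=
    FreeGroup.lift (Sum.elim (fun i => π₀ (FreeGroup.of i)) fun s => (s : G))
  let j : FreeGroup (Fin n) →* FreeGroup (Fin n ⊕ S) := FreeGroup.map Sum.inl
  have hj : π.comp j = π₀ := FreeGroup.ext_hom _ _ fun i => by simp [π, j]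
  let R : Set (FreeGroup (Fin n ⊕ S)) :=
    j '' R₀ ∪ Set.range fun s : S => FreeGroup.of (Sum.inr s) * (j (w s))⁻¹
  refine ⟨n, π, R, fun g => ?_, (hR₀.image _).union (Set.finite_range _), ?_, fun s => by simp [π]⟩
  · obtain ⟨x, rfl⟩ := hπ₀ g
    exact ⟨j x, DFunLike.congr_fun hj x⟩
  refine le_antisymm (Subgroup.normalClosure_le_normal ?_) ?_
  · rintro _ (⟨r, hr, rfl⟩ | ⟨s, rfl⟩)
    · show π (j r) = 1
      rw [← MonoidHom.comp_apply, hj, ← MonoidHom.mem_ker, ← hRπ]
      exact Subgroup.subset_normalClosure hr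
    · show π _ = 1
      rw [map_mul, map_inv, ← MonoidHom.comp_apply, hj, hw]
      simp [π]
  · set N := Subgroup.normalClosure R
    let q := QuotientGroup.mk' N
    have hle : π₀.ker ≤ (q.comp j).ker := by
      rw [← hRπ]
      refine Subgroup.normalClosure_le_normal fun r hr => ?_
      exact (QuotientGroup.eq_one_iff _).2 (Subgroup.subset_normalClosure (Or.inl ⟨r, hr, rfl⟩))
    let σ : G →* FreeGroup (Fin n ⊕ S) ⧸ N := π₀.liftOfSurjective hπ₀ ⟨q.comp j, hle⟩
    have hσ : ∀ x, σ (π₀ x) = q (j x) := fun x =>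
      MonoidHom.liftOfRightInverse_comp_apply π₀ _ _ ⟨q.comp j, hle⟩ x
    have e : σ.comp π = q := FreeGroup.ext_hom _ _ fun a => by
      rcases a with i | s
      · simpa [π, j] using hσ (FreeGroup.of i)
      · have h1 : FreeGroup.of (Sum.inr s) * (j (w s))⁻¹ ∈ N :=
          Subgroup.subset_normalClosure (Or.inr ⟨s, rfl⟩)
        rw [← QuotientGroup.eq_one_iff, QuotientGroup.mk_mul, QuotientGroup.mk_inv,
          mul_inv_eq_one] at h1
        show σ (π (FreeGroup.of (Sum.inr s))) = _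
        rw [show π (FreeGroup.of (Sum.inr s)) = (s : G) by simp [π], ← hw, hσ]
        exact h1.symm
    intro x hx
    rw [← QuotientGroup.eq_one_iff]
    show q x = 1
    rw [← e, MonoidHom.comp_apply, MonoidHom.mem_ker.1 hx, map_one]

/-- If a product of letters moves a point out of D then one letter crosses. -/
theorem exists_cross (S : Finset G) {D : Set X} {y : X} :
    ∀ {w : List G}, (∀ g ∈ w, g ∈ S ∨ g⁻¹ ∈ S) → ¬ (w.prod • y ∈ D ↔ y ∈ D) →
      ∃ v, v <:+ w ∧ ∃ g ∈ w, ¬ (g • v.prod • y ∈ D ↔ v.prod • y ∈ D)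
  | [], _, h => absurd (by simp) h
  | g :: w, hw, h => by
    rw [List.prod_cons, mul_smul] at h
    by_cases h' : g • w.prod • y ∈ D ↔ w.prod • y ∈ D
    · obtain ⟨v, hv, g', hg', hc⟩ :=
        exists_cross S (w := w) (fun a ha => hw a (List.mem_cons_of_mem _ ha)) fun e => h (h'.trans e)
      exact ⟨v, hv.trans (List.suffix_cons _ _), g', List.mem_cons_of_mem _ hg', hc⟩
    · exact ⟨w, List.suffix_cons _ _, g, List.mem_cons_self, h'⟩

/-- No thin ends: there is no nested escaping sequence of nonempty connected sets whose inner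
boundaries have bounded size. -/
theorem no_thin [Group.IsFinitelyPresented G] (htor : ∀ g : G, IsOfFinOrder g) (S : Finset G)
    (hgen : Subgroup.closure (S : Set G) = ⊤) (K : ℕ) (D : ℕ → Set X)
    (hanti : Antitone D) (hne : ∀ k, (D k).Nonempty)
    (hconn : ∀ k, ∀ a ∈ D k, ∀ b ∈ D k, Relation.ReflTransGen (GStep S (D k)) a b)
    (hbd : ∀ k, ∃ T : Finset X, T.card ≤ K ∧
      ∀ x ∈ D k, (∃ s ∈ S, s • x ∉ D k ∨ s⁻¹ • x ∉ D k) → x ∈ T)
    (hesc : ∀ x, ∃ k, x ∉ D k) : False := by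
  classical
  obtain ⟨n, π, R, hπ, hR, hRπ, hs⟩ := exists_sum_presentation S
  have hword : ∀ g : G, ∃ w : List G, (∀ a ∈ w, a ∈ S ∨ a⁻¹ ∈ S) ∧ w.prod = g := by
    intro g
    have hg : g ∈ (Subgroup.closure (S : Set G)).toSubmonoid := by rw [hgen]; trivial
    rw [Subgroup.closure_toSubmonoid] at hg
    obtain ⟨w, hw, rfl⟩ := Submonoid.exists_list_of_mem_closure hg
    exact ⟨w, fun a ha => by simpa using hw a ha, rfl⟩
  choose W hW hWp using fun l : (Fin n ⊕ S) × Bool => hword (π (FreeGroup.mk [l]))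
  -- the points near the boundary for S that can be boundary points for the letters
  let P : Finset G := Finset.univ.biUnion fun l => ((W l).tails ++
    (W l).tails.flatMap fun v => (W l).map fun g => g :: v).toFinset.image fun v => v.prod⁻¹
  have hbdry : ∀ k, ∀ T : Finset X, (∀ x ∈ D k, (∃ s ∈ S, s • x ∉ D k ∨ s⁻¹ • x ∉ D k) → x ∈ T) →
      bdry π (D k) ⊆ ↑((P ×ˢ T).image fun q => q.1 • q.2) := by
    rintro k T hT x ⟨hx, l, hl⟩
    have h1 : ¬ ((W l).prod • x ∈ D k ↔ x ∈ D k) := by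
      rw [hWp]
      exact fun e => hl (e.2 hx)
    obtain ⟨v, hv, g, hg, hc⟩ := exists_cross S (hW l) h1
    rw [Finset.coe_image, Finset.coe_product]
    by_cases hvx : v.prod • x ∈ D k
    · have hgv : g • v.prod • x ∉ D k := fun e => hc ⟨fun _ => hvx, fun _ => e⟩
      have hT' : v.prod • x ∈ T := by
        refine hT _ hvx ?_
        rcases hW l g hg with hgS | hgS
        · exact ⟨g, hgS, Or.inl hgv⟩
        · exact ⟨g⁻¹, hgS, Or.inr (by rwa [inv_inv])⟩
      refine ⟨(v.prod⁻¹, v.prod • x), ⟨?_, hT'⟩, inv_smul_smul _ _⟩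
      simp only [P, Finset.mem_coe, Finset.mem_biUnion, Finset.mem_univ, true_and, Finset.mem_image,
        List.mem_toFinset, List.mem_append, List.mem_tails]
      exact ⟨l, v, Or.inl hv, rfl⟩
    · have hgv : g • v.prod • x ∈ D k := by
        by_contra e
        exact hc ⟨fun h => absurd h e, fun h => absurd h hvx⟩
      have hT' : g • v.prod • x ∈ T := by
        refine hT _ hgv ?_
        rcases hW l g hg with hgS | hgS
        · exact ⟨g, hgS, Or.inr (by rwa [inv_smul_smul])⟩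
        · exact ⟨g⁻¹, hgS, Or.inl (by rwa [inv_smul_smul])⟩
      refine ⟨((g :: v).prod⁻¹, g • v.prod • x), ⟨?_, hT'⟩, ?_⟩
      · simp only [P, Finset.mem_coe, Finset.mem_biUnion, Finset.mem_univ, true_and,
          Finset.mem_image, List.mem_toFinset, List.mem_append, List.mem_tails, List.mem_flatMap,
          List.mem_map]
        exact ⟨l, g :: v, Or.inr ⟨v, hv, g, hg, rfl⟩, rfl⟩
      · show (g :: v).prod⁻¹ • g • v.prod • x = x
        rw [List.prod_cons, ← mul_smul g, inv_smul_smul]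
  choose T hTc hT using hbd
  refine no_thin_letters hπ hR hRπ htor (P.card * K) D hanti hne ?_ ?_ ?_ hesc
  · intro k a ha b hb
    refine Relation.ReflTransGen.mono ?_ _ _ (hconn k a ha b hb)
    rintro u v ⟨hu, hv, s, hsS, h | h⟩
    · refine ⟨hu, hv, (Sum.inr ⟨s, hsS⟩, true), ?_⟩
      show π (FreeGroup.of (Sum.inr ⟨s, hsS⟩)) • u = v
      rw [hs]; exact h
    · refine ⟨hu, hv, (Sum.inr ⟨s, hsS⟩, false), ?_⟩
      have e : FreeGroup.mk [((Sum.inr ⟨s, hsS⟩ : Fin n ⊕ S), false)] =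
          (FreeGroup.of (Sum.inr ⟨s, hsS⟩))⁻¹ := by
        rw [FreeGroup.of, FreeGroup.inv_mk]; rfl
      show π (FreeGroup.mk _) • u = v
      rw [e, map_inv, hs, inv_smul_eq_iff]
      exact h.symm
  · exact fun k => (Finset.finite_toSet _).subset (hbdry k _ (hT k))
  · intro k
    refine (Set.ncard_le_ncard (hbdry k _ (hT k)) (Finset.finite_toSet _)).trans ?_
    rw [Set.ncard_coe_finset]
    refine Finset.card_image_le.trans ?_
    rw [Finset.card_product]
    exact Nat.mul_le_mul_left _ (hTc k)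

end Vale.Agent.P192.Thin
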